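import Mathlib
import Vale.Agent.P225.Stmt

/-!
Definitions for the counterexample: the metric on `ℝ⁴`, the modes, the coupled linear system.
-/

open scoped ContDiff Matrix Topology BoundedContinuousFunction
open Filter Set

noncomputable section

namespace Vale.Agent.P225

/-! ### Linear vector fields on `ℝ⁴` -/

abbrev E := Fin 4 → ℝ

abbrev Mat := Matrix (Fin 4) (Fin 4) ℝ

/-- `A 0` is the Euler field, `A 1, A 2, A 3` is the quaternionic frame. -/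
def A : Fin 4 → Mat :=
  ![1, !![0, 0, -1, 0; 0, 0, 0, 1; 1, 0, 0, 0; 0, -1, 0, 0],
    !![0, 0, 0, -1; 0, 0, -1, 0; 0, 1, 0, 0; 1, 0, 0, 0],
    !![0, -1, 0, 0; 1, 0, 0, 0; 0, 0, 0, -1; 0, 0, 1, 0]]

/-- Rotation in the first complex coordinate. -/
def TH : Mat := !![0, -1, 0, 0; 1, 0, 0, 0; 0, 0, 0, 0; 0, 0, 0, 0]

/-- Rotation in the second complex coordinate. -/
def PS : Mat := !![0, 0, 0, 0; 0, 0, 0, 0; 0, 0, 0, -1; 0, 0, 1, 0]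

/-- Structure constants: `[A μ x, A ν x] = ∑ Cst μ ν l • A l x`. -/
def Cst : Fin 4 → Mat :=
  ![0, !![0, 0, 0, 0; 0, 0, 0, 0; 0, 0, 0, -2; 0, 0, 2, 0],
    !![0, 0, 0, 0; 0, 0, 0, 2; 0, 0, 0, 0; 0, -2, 0, 0],
    !![0, 0, 0, 0; 0, 0, -2, 0; 0, 2, 0, 0; 0, 0, 0, 0]]

/-- Components of `TH y` in the frame `A μ y`. -/
def thv (y : E) : E := ![0, y 1 * y 2 + y 0 * y 3, y 1 * y 3 - y 0 * y 2, y 0 ^ 2 + y 1 ^ 2]

/-- Components of `PS y` in the frame `A μ y`. -/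
def psv (y : E) : E := ![0, -(y 1 * y 2 + y 0 * y 3), -(y 1 * y 3 - y 0 * y 2), y 2 ^ 2 + y 3 ^ 2]

/-- The matrix with rows `A μ y`. -/
def Zm (y : E) : Mat := Matrix.of fun μ i => (A μ *ᵥ y) i

/-- Logarithm of the Euclidean norm. -/
def tau (x : E) : ℝ := Real.log (x ⬝ᵥ x) / 2

/-- Radial projection to the unit sphere. -/
def nrm (x : E) : E := (√(x ⬝ᵥ x))⁻¹ • x

def z0 (y : E) : ℂ := y 0 + y 1 * Complex.I

def z1 (y : E) : ℂ := y 2 + y 3 * Complex.I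

def xx (y : E) : ℝ := y 2 ^ 2 + y 3 ^ 2

/-- Derivative along the linear vector field `x ↦ M x`. -/
def dA {F : Type} [NormedAddCommGroup F] [NormedSpace ℝ F] (M : Mat) (H : E → F) (y : E) : F :=
  fderiv ℝ H y (M *ᵥ y)

/-- Derivative along a vector field. -/
def vD (W : E → E) (f : E → ℝ) (x : E) : ℝ := fderiv ℝ f x (W x)

/-- Bracket of vector fields. -/
def brk (U W : E → E) (x : E) : E := fderiv ℝ W x (U x) - fderiv ℝ U x (W x)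

/-! ### Multipliers -/

abbrev Pol := MvPolynomial (Fin 3) ℝ

/-- Evaluation of a formal multiplier: the variables are `z0 ^ q`, its conjugate, `|z1| ^ 2`. -/
def ev (q : ℕ) (y : E) : Pol →ₐ[ℝ] ℂ :=
  MvPolynomial.aeval ![z0 y ^ q, (starRingEnd ℂ) (z0 y) ^ q, (xx y : ℂ)]

/-- Control parameters. -/
abbrev V (D : ℕ) := Fin 2 × Fin D × Fin D → ℝ

/-- The two shear polynomials. -/
def xiP {D : ℕ} (P : V D) (f : Fin 2) : Pol :=
  ∑ d : Fin D, ∑ i : Fin D, P (f, d, i) • (MvPolynomial.X 2 ^ (i : ℕ) *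
    (MvPolynomial.X 0 ^ (d : ℕ) + MvPolynomial.X 1 ^ (d : ℕ)))

/-- The two shear functions. -/
def xi (q : ℕ) {D : ℕ} (P : V D) (f : Fin 2) (y : E) : ℝ := (ev q y (xiP P f)).re

/-- First order part of the co-metric perturbation (`θθ`, `θψ`, `ψψ` components). -/
def eL {R : Type} [CommRing R] (X Z x s t : R) : Fin 3 → R :=
  ![2 * Z * x * t, (X + Z * (1 - x)) * s + (X + Z * x) * t, 2 * Z * (1 - x) * s]

/-- Higher order part of the co-metric perturbation. -/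
def eH {R : Type} [CommRing R] (X Z x s t : R) : Fin 3 → R :=
  ![(X * x + Z * x ^ 2) * t ^ 2,
    2 * Z * x * (1 - x) * s * t + (X * x + Z * x ^ 2) * (1 - x) * s * t ^ 2,
    2 * (X + Z * x) * (1 - x) * s * t + (X * (1 - x) + Z * (1 - x) ^ 2) * s ^ 2 +
      2 * Z * x * (1 - x) ^ 2 * s ^ 2 * t + (X * x + Z * x ^ 2) * (1 - x) ^ 2 * s ^ 2 * t ^ 2]

def bX (b : ℝ) : ℝ := (b ^ 2)⁻¹

def bZ (b : ℝ) : ℝ := b ^ 4 - (b ^ 2)⁻¹

/-- The perturbation as real functions. -/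
def eR (q : ℕ) {D : ℕ} (π : ℝ × V D) (k : Fin 3) (y : E) : ℝ :=
  eL (bX π.1) (bZ π.1) (xx y) (xi q π.2 0 y) (xi q π.2 1 y) k +
    eH (bX π.1) (bZ π.1) (xx y) (xi q π.2 0 y) (xi q π.2 1 y) k

/-- First order formal perturbation. -/
def eLP {D : ℕ} (b : ℝ) (P : V D) (k : Fin 3) : Pol :=
  eL (MvPolynomial.C (bX b)) (MvPolynomial.C (bZ b)) (MvPolynomial.X 2) (xiP P 0) (xiP P 1) k

/-- The formal perturbation. -/
def eP {D : ℕ} (b : ℝ) (P : V D) (k : Fin 3) : Pol :=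
  eLP b P k +
    eH (MvPolynomial.C (bX b)) (MvPolynomial.C (bZ b)) (MvPolynomial.X 2) (xiP P 0) (xiP P 1) k

/-- The tangential Laplacian. -/
def Qop {F : Type} [NormedAddCommGroup F] [NormedSpace ℝ F] (q : ℕ) {D : ℕ} (π : ℝ × V D)
    (H : E → F) (y : E) : F :=
  bX π.1 • (dA (A 1) (dA (A 1) H) y + dA (A 2) (dA (A 2) H) y + dA (A 3) (dA (A 3) H) y) +
    bZ π.1 • dA (A 3) (dA (A 3) H) y +
    dA TH (fun z => eR q π 0 z • dA TH H z + eR q π 1 z • dA PS H z) y +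
    dA PS (fun z => eR q π 1 z • dA TH H z + eR q π 2 z • dA PS H z) y

/-! ### The metric -/

/-- The frame matrix. -/
def Sm (q : ℕ) {D : ℕ} (π : ℝ × V D) (y : E) : Mat :=
  Matrix.diagonal ![1, π.1⁻¹, π.1⁻¹, π.1 ^ 2] *
    (1 + xi q π.2 1 y • Matrix.vecMulVec (psv y) (thv y)) *
    (1 + xi q π.2 0 y • Matrix.vecMulVec (thv y) (psv y))

/-- Its inverse. -/
def Si (q : ℕ) {D : ℕ} (π : ℝ × V D) (y : E) : Mat :=
  (1 - xi q π.2 0 y • Matrix.vecMulVec (thv y) (psv y)) *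
    (1 - xi q π.2 1 y • Matrix.vecMulVec (psv y) (thv y)) *
    Matrix.diagonal ![1, π.1, π.1, (π.1 ^ 2)⁻¹]

/-- Radial profile of the metric: `κ` is the logarithmic derivative of the warping function,
`π = (b, P)` the Berger and control parameters, as functions of `τ = log |x|`. -/
structure Prof (D : ℕ) where
  κ : ℝ → ℝ
  π : ℝ → ℝ × V D
  κ_smooth : ContDiff ℝ ∞ κ
  π_smooth : ContDiff ℝ ∞ π
  κ_init : ∀ t ≤ 0, κ t = 1
  π_init : ∀ t ≤ 0, π t = (1, 0)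
  b_lo : ∀ t, 1 / 2 ≤ (π t).1
  b_hi : ∀ t, (π t).1 ≤ 2
  P_le : ∀ t, ‖(π t).2‖ ≤ 1

/-- The warping function. -/
def Prof.F {D : ℕ} (p : Prof D) (t : ℝ) : ℝ := Real.exp (∫ s in (0 : ℝ)..t, p.κ s)

/-- Size of the deviation from a static Berger cone. -/
def Prof.eta {D : ℕ} (p : Prof D) (t : ℝ) : ℝ :=
  ‖(p.π t).2‖ + ‖deriv p.π t‖ + ‖deriv (deriv p.π) t‖

/-- The metric. -/
def met (q : ℕ) {D : ℕ} (p : Prof D) (x : E) : Mat :=
  if x = 0 then 1 else (p.F (tau x) ^ 2 / (x ⬝ᵥ x)) •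
    ((Zm (nrm x))ᵀ * Si q (p.π (tau x)) (nrm x) * (Si q (p.π (tau x)) (nrm x))ᵀ * Zm (nrm x))

/-- The orthonormal frame away from the origin. -/
def frame (q : ℕ) {D : ℕ} (p : Prof D) (a : Fin 4) (x : E) : E :=
  (p.F (tau x))⁻¹ • ∑ μ, Sm q (p.π (tau x)) (nrm x) a μ • (A μ *ᵥ x)

/-! ### Curvature as a function of the jet -/

abbrev St (D : ℕ) := ℝ × (ℝ × V D) × (ℝ × V D) × E

def ZS (q : ℕ) {D : ℕ} (ζ : St D) (μ a ν : Fin 4) : ℝ :=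
  fderiv ℝ (fun z : (ℝ × V D) × E => Sm q z.1 z.2 a ν) (ζ.2.1, ζ.2.2.2)
    (if μ = 0 then (ζ.2.2.1, 0) else (0, A μ *ᵥ ζ.2.2.2))

/-- Rescaled structure functions of the frame. -/
def ct (q : ℕ) {D : ℕ} (a b c : Fin 4) (ζ : St D) : ℝ :=
  ∑ ν, (∑ μ, (Sm q ζ.2.1 ζ.2.2.2 a μ * ZS q ζ μ b ν - Sm q ζ.2.1 ζ.2.2.2 b μ * ZS q ζ μ a ν) +
      ∑ μ, ∑ l, Sm q ζ.2.1 ζ.2.2.2 a μ * Sm q ζ.2.1 ζ.2.2.2 b l * Cst μ l ν) *
      Si q ζ.2.1 ζ.2.2.2 ν c -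
    ζ.1 * ((if a = 0 ∧ b = c then 1 else 0) - (if b = 0 ∧ a = c then 1 else 0))

/-- Rescaled connection coefficients. -/
def om (q : ℕ) {D : ℕ} (a b c : Fin 4) (ζ : St D) : ℝ :=
  (ct q a b c ζ - ct q b c a ζ + ct q c a b ζ) / 2

def dv (q : ℕ) {D : ℕ} (d : Fin 4) (ζ : St D) : ℝ := ∑ a, om q a d a ζ

/-- Derivative of a function of the jet along the rescaled frame. -/
def Dz (q : ℕ) {D : ℕ} (f : St D → ℝ) (ζ : St D) (k' : ℝ) (π'' : ℝ × V D) (d : Fin 4) : ℝ :=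
  ∑ μ, Sm q ζ.2.1 ζ.2.2.2 d μ * fderiv ℝ f ζ
    (if μ = 0 then (k', ζ.2.2.1, π'', 0) else (0, 0, 0, A μ *ᵥ ζ.2.2.2))

/-- Rescaled Ricci tensor in the frame. -/
def Phi (q : ℕ) {D : ℕ} (ζ : St D) (k' : ℝ) (π'' : ℝ × V D) (b e : Fin 4) : ℝ :=
  ∑ d, (Dz q (om q b e d) ζ k' π'' d + om q b e d ζ * dv q d ζ) - ζ.1 * om q b e 0 ζ -
    Dz q (dv q e) ζ k' π'' b + (if b = 0 then ζ.1 * dv q e ζ else 0) -
    ∑ a, ∑ d, om q a b d ζ * om q d e a ζ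

/-- The jet of a profile at a point. -/
def Prof.jet {D : ℕ} (p : Prof D) (x : E) : St D :=
  (p.κ (tau x), p.π (tau x), deriv p.π (tau x), nrm x)

/-! ### Modes -/

/-- Jacobi polynomial on `[0, 1]` for the weight `x ^ c (1 - x) ^ α`. -/
def jac (α c j : ℕ) : Polynomial ℝ :=
  ∑ i ∈ Finset.range (j + 1), Polynomial.monomial i
    ((-1) ^ i * ((j + c + α + i).choose i : ℝ) * ((c + j).choose (j - i) : ℝ))

/-- Normalized Jacobi polynomial. -/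
def pn (α c j : ℕ) : Polynomial ℝ :=
  Polynomial.C (√(∫ x in (0 : ℝ)..1, x ^ c * (1 - x) ^ α * (jac α c j).eval x ^ 2))⁻¹ * jac α c j

/-- `z0 ^ m` for `m ≥ 0`, its conjugate to the power `-m` for `m < 0`. -/
def ang (m : ℤ) (y : E) : ℂ := z0 y ^ m.toNat * (starRingEnd ℂ) (z0 y) ^ (-m).toNat

/-- Degree of a mode. -/
def lev (m : ℤ) (c j : ℕ) : ℕ := m.natAbs + c + 2 * j

/-- The mode: a homogeneous harmonic polynomial of degree `lev m c j`. -/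
def mode (m : ℤ) (c j : ℕ) (y : E) : ℂ :=
  ang m y * z1 y ^ c * ((∑ i ∈ Finset.range (j + 1),
    (pn m.natAbs c j).coeff i * xx y ^ i * (y ⬝ᵥ y) ^ (j - i) : ℝ) : ℂ)

/-- Eigenvalue of a mode for the Berger metric with parameter `b`. -/
def lam (b : ℝ) (m : ℤ) (c j : ℕ) : ℝ :=
  bX b * (lev m c j * (lev m c j + 2)) + bZ b * ((m : ℝ) + c) ^ 2

/-- Index set of the modes of a sector. -/
abbrev Ix := ℤ × ℕ

/-- A sector `(r, c)`: the mode `(a, j)` has `m + c = r + q a`. -/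
def mm (q : ℕ) (σ : ℕ × ℕ) (n : Ix) : ℤ := σ.1 - σ.2 + q * n.1

def lv (q : ℕ) (σ : ℕ × ℕ) (n : Ix) : ℕ := lev (mm q σ n) σ.2 n.2

def md (q : ℕ) (σ : ℕ × ℕ) (n : Ix) : E → ℂ := mode (mm q σ n) σ.2 n.2

/-- Matrix entry (row `n'`, column `n`) of the multiplication by a monomial. -/
def Mmon (q : ℕ) (σ : ℕ × ℕ) (n' n : Ix) (μ : Fin 3 →₀ ℕ) : ℝ :=
  if n'.1 = n.1 + μ 0 - μ 1 then
    ∫ x in (0 : ℝ)..1, x ^ (σ.2 + μ 2) *
      (1 - x) ^ (((mm q σ n).natAbs + (mm q σ n').natAbs + q * (μ 0 + μ 1)) / 2) *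
      ((pn (mm q σ n).natAbs σ.2 n.2).eval x * (pn (mm q σ n').natAbs σ.2 n'.2).eval x)
  else 0

/-- Matrix entry of the multiplication by a formal multiplier. -/
def Mlin (q : ℕ) (σ : ℕ × ℕ) (n' n : Ix) : Pol →ₗ[ℝ] ℝ :=
  (MvPolynomial.basisMonomials (Fin 3) ℝ).constr ℝ (Mmon q σ n' n)

/-- The angular factors. -/
def af (q : ℕ) (σ : ℕ × ℕ) (n' n : Ix) : Fin 3 → ℝ :=
  ![mm q σ n * mm q σ n', σ.2 * (mm q σ n + mm q σ n'), σ.2 ^ 2]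

/-- Matrix entry of the perturbation of the Laplacian. -/
def Bm (q : ℕ) (σ : ℕ × ℕ) (e : Fin 3 → Pol) (n' n : Ix) : ℝ :=
  ∑ k, af q σ n' n k * Mlin q σ n' n (e k)

/-- Degree bound for the multipliers. -/
def deg (D : ℕ) : ℕ := 8 * D + 4

/-- Neighbours of a mode. -/
def nb (q D : ℕ) (n : Ix) : Finset Ix :=
  Finset.Icc (n.1 - deg D) (n.1 + deg D) ×ˢ
    Finset.Icc (n.2 - (q + 1) * deg D) (n.2 + (q + 1) * deg D)

/-- Pointwise bound for a function and its first two derivatives. -/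
def Bd2 {F : Type} [NormedAddCommGroup F] [NormedSpace ℝ F] (f : E → F) (x : E) (C : ℝ) : Prop :=
  ContDiffAt ℝ 2 f x ∧ ‖f x‖ ≤ C ∧ ‖fderiv ℝ f x‖ ≤ C ∧ ‖fderiv ℝ (fderiv ℝ f) x‖ ≤ C

/-! ### The abstract linear system -/

/-- Scalar data: `ψ'' = q ψ`, `ρ = ψ' / ψ`, and `g / ψ` is the decaying solution. -/
structure Sys (I : Type) where
  Λ : I → ℝ
  q : I → ℝ → ℝ
  ρ : I → ℝ → ℝ
  ψ : I → ℝ → ℝ
  g : I → ℝ → ℝ
  one_le : ∀ n, 1 ≤ Λ n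
  q_cont : ∀ n, Continuous (q n)
  q_lo : ∀ n t, (9 / 10 * Λ n) ^ 2 ≤ q n t
  q_hi : ∀ n t, q n t ≤ (11 / 10 * Λ n) ^ 2
  ψ_pos : ∀ n t, 0 < ψ n t
  ψ_deriv : ∀ n t, HasDerivAt (ψ n) (ρ n t * ψ n t) t
  ρ_deriv : ∀ n t, HasDerivAt (ρ n) (q n t - ρ n t ^ 2) t
  ρ_lo : ∀ n t, 9 / 10 * Λ n ≤ ρ n t
  ρ_hi : ∀ n t, ρ n t ≤ 11 / 10 * Λ n
  g_deriv : ∀ n t, HasDerivAt (g n) (2 * ρ n t * g n t - 1) t
  g_lo : ∀ n t, 1 ≤ 11 / 5 * Λ n * g n t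
  g_hi : ∀ n t, 9 / 5 * Λ n * g n t ≤ 1
  ψ_init : ∀ n, ∀ t ≤ 0, ψ n t = Real.exp (Λ n * t)

/-- The decaying solution. -/
def Sys.χ {I : Type} (S : Sys I) (n : I) (t : ℝ) : ℝ := S.g n t / S.ψ n t

/-- The coupling term. -/
def Sys.src {I : Type} (S : Sys I) (N : I → Finset I) (c : ℝ → I → I → ℝ) (v : I → ℝ → ℝ)
    (n : I) (t : ℝ) : ℝ := S.Λ n ^ 2 * ∑ m ∈ N n, c t n m * v m t

/-- Growing part of a solution on a pulse interval `[s, s + 1]`. -/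
def Sys.al {I : Type} (S : Sys I) (N : I → Finset I) (c : ℝ → I → I → ℝ) (s : ℝ) (x : I → ℝ)
    (v : I → ℝ → ℝ) (n : I) (t : ℝ) : ℝ :=
  S.ψ n t * (x n / S.ψ n (s + 1) - ∫ r in t..s + 1, S.χ n r * S.src N c v n r)

/-- Decaying part of a solution on a pulse interval `[s, s + 1]`. -/
def Sys.be {I : Type} (S : Sys I) (N : I → Finset I) (c : ℝ → I → I → ℝ) (s : ℝ) (y : I → ℝ)
    (v : I → ℝ → ℝ) (n : I) (t : ℝ) : ℝ :=
  S.χ n t * (y n / S.χ n s - ∫ r in s..t, S.ψ n r * S.src N c v n r)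

/-- `v` solves the coupled system on `[s, s + 1]`, with growing parts `x0`, `x1` and decaying
parts `y0`, `y1` at the two ends, all bounded by `C`. -/
structure Sys.PSol {I : Type} (S : Sys I) (N : I → Finset I) (c : ℝ → I → I → ℝ) (s : ℝ)
    (x0 y0 x1 y1 : I → ℝ) (C : ℝ) (v : I → ℝ → ℝ) : Prop where
  cont : ∀ n, Continuous (v n)
  eq : ∀ n, ∀ t ∈ Icc s (s + 1), v n t = S.al N c s x1 v n t + S.be N c s y0 v n t
  left : ∀ n, x0 n = S.al N c s x1 v n s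
  right : ∀ n, y1 n = S.be N c s y0 v n (s + 1)
  al_le : ∀ n, ∀ t ∈ Icc s (s + 1), |S.al N c s x1 v n t| ≤ C
  be_le : ∀ n, ∀ t ∈ Icc s (s + 1), |S.be N c s y0 v n t| ≤ C

/-- Coupling coefficients from amplitudes `k` and elementary matrices `β`. -/
def cpl {I T : Type} [Fintype T] (β : T → I → I → ℝ) (k : ℝ → T → ℝ) (t : ℝ) (n m : I) : ℝ :=
  ∑ a, k t a * β a n m

/-- First order kernel of a pulse on `[s, s + 1]`. -/
def Sys.ker {I : Type} (S : Sys I) (s : ℝ) (m i : I) (r : ℝ) : ℝ :=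
  S.Λ m ^ 2 * S.g m r * (S.ψ m s / S.ψ m r) * (S.ψ i r / S.ψ i (s + 1))

/-- Bounded sequences. -/
abbrev W := Ix →ᵇ ℝ

/-- Unit vectors. -/
def eW (i : Ix) : W := BoundedContinuousFunction.ofNormedAddCommGroupDiscrete (Pi.single i 1) 1
  (fun j => by by_cases h : j = i <;> simp [h])

/-- Controlled matrix entries: sector, row, column. -/
def prs {S : Type} [Fintype S] [DecidableEq S] (B B' : S → Finset Ix) : Finset (S × Ix × Ix) :=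
  Finset.univ.biUnion fun σ => ((B σ ×ˢ B' σ).filter fun z => z.1 ≠ z.2).image fun z => (σ, z)

/-- State after a pulse: reflection operator `Eo` and normalized lane functionals `R`. -/
structure Good (B B' : Finset Ix) (C : ℝ) (Eo : W →L[ℝ] W) (R : Ix → W →L[ℝ] ℝ) : Prop where
  E_le : ‖Eo‖ ≤ 1
  R_le : ∀ m ∈ B, ‖R m‖ ≤ C
  R_eq : ∀ m ∈ B, ∀ i ∈ B', R m (eW i) = if m = i then 1 else 0

/-- One step from time `t0` to time `t1`, with a pulse on `[t1 - 1, t1]`. -/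
structure Step (S : Sys Ix) (N : Ix → Finset Ix) (c : ℝ → Ix → Ix → ℝ) (B : Finset Ix)
    (t0 t1 : ℝ) (Eo : W →L[ℝ] W) (R : Ix → W →L[ℝ] ℝ) (E' : W →L[ℝ] W) (R' : Ix → W →L[ℝ] ℝ)
    (No : W →L[ℝ] W) (σ : Ix → Ix) (y d : Ix → ℝ) : Prop where
  d_lo : ∀ m ∈ B, S.ψ m (t1 - 1) / S.ψ m t1 ≤ 2 * d m
  d_hi : ∀ m ∈ B, d m ≤ 2 * (S.ψ m (t1 - 1) / S.ψ m t1)
  rel : ∀ m ∈ B, ∀ x, R m (No x) = S.ψ m t0 / S.ψ m (t1 - 1) *
    (d m * R' m x + y m * (d (σ m) * R' (σ m) x))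
  sol : ∀ x : W, ∃ x0 y0 : Ix → ℝ, ∃ v, S.PSol N c (t1 - 1) x0 y0 x (E' x) (2 * ‖x‖) v ∧
    (∀ n, No x n = S.ψ n t0 / S.ψ n (t1 - 1) * x0 n) ∧
    ∀ n, y0 n = S.χ n (t1 - 1) / S.χ n t0 * Eo (No x) n

/-- Admissible targets for a matching `σ`. -/
structure Target (B : Finset Ix) (ε : ℝ) (σ : Ix → Ix) (y : Ix → ℝ) : Prop where
  mem : ∀ m ∈ B, σ m ∈ B
  inv : ∀ m ∈ B, σ (σ m) = m
  le : ∀ m ∈ B, |y m| ≤ ε
  mul : ∀ m ∈ B, y m * y (σ m) = 0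

/-- The adaptive choice of the targets: `j` is the number of the step, `D0, D1` the free
propagation factors of the previous and of the current step, `d0, d1` the diagonal factors of
the two previous pulses. -/
def strat (σ : Ix → Ix) (up : Ix → Prop) [DecidablePred up] (ε : ℝ) (j : ℕ)
    (D0 D1 d0 d1 : Ix → ℝ) (m : Ix) : ℝ :=
  if σ m = m then 0 else
    if j % 3 = 0 then (if up m then ε else 0) else
      if j % 3 = 1 then
        (if up m then 0 else -(d1 (σ m) * D1 (σ m)) / (ε * (d1 m * D1 m))) else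
        (if up m then ε * (d0 (σ m) * D0 (σ m)) * (d1 (σ m) * D1 (σ m)) /
          ((d0 m * D0 m) * (d1 m * D1 m)) else 0)

/-- Free propagation factor of the step number `j`. -/
def Sys.Dw (S : Sys Ix) (t : ℕ → ℝ) (j : ℕ) (m : Ix) : ℝ := S.ψ m (t j) / S.ψ m (t (j + 1) - 1)

/-- Range of the diagonal factors of the pulse number `j`. -/
def Sys.DR (S : Sys Ix) (B : Finset Ix) (t : ℕ → ℝ) (j : ℕ) (d : Ix → ℝ) : Prop :=
  ∀ m ∈ B, S.ψ m (t (j + 1) - 1) / S.ψ m (t (j + 1)) ≤ 2 * d m ∧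
    d m ≤ 2 * (S.ψ m (t (j + 1) - 1) / S.ψ m (t (j + 1)))

/-- A matching with an orientation. -/
structure Match (B : Finset Ix) (up : Ix → Prop) (σ : Ix → Ix) : Prop where
  mem : ∀ m ∈ B, σ m ∈ B
  inv : ∀ m ∈ B, σ (σ m) = m
  up : ∀ m ∈ B, σ m ≠ m → (up m ↔ ¬up (σ m))

/-- Position of a lane at the beginning of the stage `i`. -/
def lane (σ : ℕ → Ix → Ix) (n : Ix) : ℕ → Ix
  | 0 => n
  | i + 1 => σ i (lane σ n i)

/-- Growth factor of a lane during the stage `i`. -/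
def Sys.Gf (S : Sys Ix) (t ε : ℕ → ℝ) (L : ℝ) (m : Ix) (i : ℕ) : ℝ :=
  16 / ε i * Real.exp (11 / 10 * L * (t (3 * i + 3) - (t (3 * i + 1) - 1))) *
    (S.ψ m (t (3 * i + 1) - 1) / S.ψ m (t (3 * i)))

/-- The two domination conditions of the stage `i`. -/
def Sys.Dom (S : Sys Ix) (t ε : ℕ → ℝ) (i : ℕ) (a b : Ix) : Prop :=
  4 * (S.ψ a (t (3 * i + 1) - 1) / S.ψ a (t (3 * i + 2) - 1)) ≤
      ε i ^ 2 * (S.ψ b (t (3 * i + 1) - 1) / S.ψ b (t (3 * i + 2) - 1)) ∧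
    16 * (S.ψ b (t (3 * i + 1) - 1) / S.ψ b (t (3 * i + 3) - 1)) ≤
      S.ψ a (t (3 * i + 1) - 1) / S.ψ a (t (3 * i + 3) - 1)

/-! ### The schedule -/

structure Sch where
  τ : ℝ
  M1 : ℝ
  M3 : ℝ
  i0 : ℕ
  τ_ge : 1 ≤ τ
  M1_ge : 1 ≤ M1
  M3_ge : 1 ≤ M3
  i0_ge : 20 ≤ i0

/-- Time scale of the stage `i`. -/
def Sch.T (c : Sch) (i : ℕ) : ℝ := ((i : ℝ) + c.i0) ^ 2

/-- Beginning of the stage `i`. -/
def Sch.u (c : Sch) (i : ℕ) : ℝ :=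
  c.τ + c.T 0 + (c.M3 + c.M1 + 5) * ∑ l ∈ Finset.range i, c.T l

/-- Ends of the pulses. -/
def Sch.t (c : Sch) (j : ℕ) : ℝ :=
  c.u (j / 3) + (if j % 3 = 0 then 0 else if j % 3 = 1 then c.M3 else c.M3 + 1) * c.T (j / 3)

/-! ### Combinatorics of the modes -/

/-- Modes of degree at most `K`. -/
def Bk (q : ℕ) (σ : ℕ × ℕ) (K : ℕ) : Finset Ix :=
  (Finset.Icc (-(K : ℤ)) K ×ˢ Finset.range (K + 1)).filter fun n => lv q σ n ≤ K

/-- The sectors. -/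
def secs (s : ℕ) : Finset (ℕ × ℕ) := Finset.Icc 1 (4 * s) ×ˢ Finset.Icc 1 (10 * s)

abbrev Sec (s : ℕ) := {σ // σ ∈ secs s}

/-- The controlled rows. -/
def B1 (s : ℕ) (σ : Sec s) : Finset Ix := Bk (4 * s + 1) σ.1 (10 * s)

/-- The controlled columns. -/
def B2 (s : ℕ) (σ : Sec s) : Finset Ix := Bk (4 * s + 1) σ.1 (20 * s)

/-- Modes of the chains. -/
def InCh (s : ℕ) (σ : ℕ × ℕ) (n : Ix) : Prop :=
  3 * s + 1 ≤ σ.1 ∧ σ.2 ≤ s ∧ (n.1 = 0 ∨ n.1 = -1) ∧ 4 * s ≤ lv (4 * s + 1) σ n ∧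
    lv (4 * s + 1) σ n ≤ 10 * s

instance (s : ℕ) (σ : ℕ × ℕ) (n : Ix) : Decidable (InCh s σ n) := by
  unfold InCh; infer_instance

/-- The mode of degree `K` of the chain. -/
def chm (s : ℕ) (σ : ℕ × ℕ) (K : ℕ) : Ix :=
  if (K + σ.1) % 2 = 0 then (0, (K - σ.1) / 2) else (-1, (K + σ.1 - (4 * s + 1) - 2 * σ.2) / 2)

/-- The matching of the stage `i`. -/
def trn (s : ℕ) (σ : ℕ × ℕ) (i : ℕ) (n : Ix) : Ix :=
  if InCh s σ n then
    (if (lv (4 * s + 1) σ n + i) % 2 = 0 then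
      (if lv (4 * s + 1) σ n < 10 * s then chm s σ (lv (4 * s + 1) σ n + 1) else n)
    else (if 4 * s < lv (4 * s + 1) σ n then chm s σ (lv (4 * s + 1) σ n - 1) else n))
  else n

/-- The good lanes. -/
def Gd (s : ℕ) (σ : ℕ × ℕ) : Finset Ix :=
  (Bk (4 * s + 1) σ (10 * s)).filter fun n => InCh s σ n ∨ lv (4 * s + 1) σ n + 141 ≤ 8 * s

/-- All good lanes. -/
def GdAll (s : ℕ) : Finset ((ℕ × ℕ) × Ix) :=
  (secs s).biUnion fun σ => (Gd s σ).image fun n => (σ, n)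

/-- Exponent of a mode on the cone with parameters `b` and `c`. -/
def mu (q : ℕ) (b c : ℝ) (σ : ℕ × ℕ) (n : Ix) : ℝ := √(lam b (mm q σ n) σ.2 n.2 + c ^ 2)

/-- The pair (degree, weight) that determines the eigenvalue. -/
def key (q : ℕ) (σ : ℕ × ℕ) (n : Ix) : ℕ × ℕ := (lv q σ n, (mm q σ n + σ.2).natAbs)

/-- Index set of the elementary couplings. -/
abbrev Tix (D : ℕ) := Fin 3 × (Fin 3 → Fin (deg D + 1))

/-- One term of the series for the harmonic function. -/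
def term (q : ℕ) {D : ℕ} (p : Prof D) (σ : ℕ × ℕ) (M : ℝ) (γ : ℂ) (v : Ix → ℝ → ℝ) (n : Ix)
    (x : E) : ℝ :=
  v n (tau x) / (M ^ lv q σ n * Real.exp (lv q σ n * tau x) * p.F (tau x)) * (γ * md q σ n x).re

/-- A solution of the radial system of the sector `σ`, in the variables weighted by `M`. -/
structure Radial (q : ℕ) {D : ℕ} (p : Prof D) (σ : ℕ × ℕ) (M θ C : ℝ) (a : Ix → ℝ)
    (c : ℝ → Ix → Ix → ℝ) (v v' : Ix → ℝ → ℝ) : Prop where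
  c_cont : ∀ n m, Continuous fun t => c t n m
  c_row : ∀ t n, ∑ m ∈ nb q D n, |c t n m| ≤ 1
  c_eq : ∀ t n m, ((lv q σ n : ℝ) + 1) ^ 2 * c t n m =
    M ^ lv q σ n / M ^ lv q σ m * Bm q σ (eP (p.π t).1 (p.π t).2) n m
  d1 : ∀ n t, HasDerivAt (v n) (v' n t) t
  d2 : ∀ n t, HasDerivAt (v' n)
    ((lam (p.π t).1 (mm q σ n) σ.2 n.2 + (p.κ t ^ 2 + deriv p.κ t)) * v n t +
      ((lv q σ n : ℝ) + 1) ^ 2 * ∑ m ∈ nb q D n, c t n m * v m t) t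
  init : ∀ n, ∀ t ≤ 0, v n t = a n * Real.exp ((lv q σ n + 1) * t)
  le : ∀ n t, |v n t| ≤ C * Real.exp (θ * max t 0)
  le' : ∀ n t, |v' n t| ≤ C * (lv q σ n + 1) * Real.exp (θ * max t 0)

end Vale.Agent.P225
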