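import Mathlib
import Vale.Agent.P225.Shear

/-! Curvature of the static Berger cones and the radial component. -/

open scoped ContDiff Matrix Topology BoundedContinuousFunction
open Filter Set

noncomputable section

namespace Vale.Agent.P225

variable {q D : ℕ}

theorem rm_contDiffAt_om (a b c : Fin 4) {ζ : St D} (h : ζ.2.1.1 ≠ 0) :
    ContDiffAt ℝ ∞ (om q a b c) ζ := by
  unfold om
  exact (((contDiffAt_ct a b c h).sub (contDiffAt_ct b c a h)).add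
    (contDiffAt_ct c a b h)).div_const 2

theorem rm_contDiffAt_dv (d : Fin 4) {ζ : St D} (h : ζ.2.1.1 ≠ 0) :
    ContDiffAt ℝ ∞ (dv q d) ζ := by
  unfold dv
  exact ContDiffAt.sum fun a _ => rm_contDiffAt_om a d a h

theorem rm_line {X : Type} [NormedAddCommGroup X] [NormedSpace ℝ X] {f : X → ℝ} {x v : X} {w : ℝ}
    (hf : DifferentiableAt ℝ f x) (h : HasDerivAt (fun t : ℝ => f (x + t • v)) w 0) :
    fderiv ℝ f x v = w := by
  rw [← hf.lineDeriv_eq_fderiv]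
  exact HasLineDerivAt.lineDeriv h

theorem rm_ZS_static (k : ℝ) {b : ℝ} (hb : b ≠ 0) (y : E) (μ a ν : Fin 4) :
    ZS q ((k, (b, 0), 0, y) : St D) μ a ν = 0 := by
  unfold ZS
  by_cases hμ : μ = 0
  · simp only [hμ, if_true]
    exact map_zero _
  · simp only [hμ, if_false]
    refine rm_line ((contDiffAt_Sm (q := q) a ν (z := ((b, 0), y)) hb).differentiableAt
      (by simp)) ?_
    simp only [Prod.smul_mk, Prod.mk_add_mk, smul_zero, add_zero, Sm_static]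
    exact hasDerivAt_const _ _

theorem rm_ct_static (k : ℝ) {β : ℝ} (hb : β ≠ 0) (y : E) (a b c : Fin 4) :
    ct q a b c ((k, (β, 0), 0, y) : St D) =
      ![1, β⁻¹, β⁻¹, β ^ 2] a * ![1, β⁻¹, β⁻¹, β ^ 2] b * Cst a b c * ![1, β, β, (β ^ 2)⁻¹] c -
        k * ((if a = 0 ∧ b = c then 1 else 0) - (if b = 0 ∧ a = c then 1 else 0)) := by
  unfold ct
  simp only [rm_ZS_static k hb, Sm_static, Si_static, Matrix.diagonal_apply]
  simp

/-- Connection coefficients of the Berger sphere. -/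
def rmO (β : ℝ) : Fin 4 → Mat :=
  ![0, !![0, 0, 0, 0; 0, 0, 0, 0; 0, 0, 0, -(β ^ 4)⁻¹; 0, 0, (β ^ 4)⁻¹, 0],
    !![0, 0, 0, 0; 0, 0, 0, (β ^ 4)⁻¹; 0, 0, 0, 0; 0, -(β ^ 4)⁻¹, 0, 0],
    !![0, 0, 0, 0; 0, 0, (β ^ 4)⁻¹ - 2 * β ^ 2, 0; 0, 2 * β ^ 2 - (β ^ 4)⁻¹, 0, 0; 0, 0, 0, 0]]

/-- Connection coefficients of the cone. -/
def rmP : Fin 4 → Mat :=
  ![0, !![0, 1, 0, 0; -1, 0, 0, 0; 0, 0, 0, 0; 0, 0, 0, 0],
    !![0, 0, 1, 0; 0, 0, 0, 0; -1, 0, 0, 0; 0, 0, 0, 0],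
    !![0, 0, 0, 1; 0, 0, 0, 0; 0, 0, 0, 0; -1, 0, 0, 0]]

theorem rm_om_static (k : ℝ) {β : ℝ} (hb : β ≠ 0) (y : E) (a b c : Fin 4) :
    om q a b c ((k, (β, 0), 0, y) : St D) = rmO β a b c + k * rmP a b c := by
  unfold om
  simp only [rm_ct_static k hb]
  fin_cases a <;> fin_cases b <;> fin_cases c <;> simp [rmO, rmP, Cst] <;> field_simp <;> ring

theorem rm_dv_static (k : ℝ) {β : ℝ} (hb : β ≠ 0) (y : E) (d : Fin 4) :
    dv q d ((k, (β, 0), 0, y) : St D) = 0 + k * (if d = 0 then 3 else 0) := by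
  unfold dv
  simp only [rm_om_static k hb]
  fin_cases d <;> simp [rmO, rmP, Fin.sum_univ_four]
  ring

theorem rm_Dz_static {f : St D → ℝ} {k β : ℝ} {y : E}
    (hf : DifferentiableAt ℝ f ((k, (β, 0), 0, y) : St D)) {f0 f1 : ℝ}
    (h : ∀ k y, f ((k, (β, 0), 0, y) : St D) = f0 + k * f1) (k' : ℝ) (d : Fin 4) :
    Dz q f ((k, (β, 0), 0, y) : St D) k' 0 d = if d = 0 then k' * f1 else 0 := by
  have h1 : ∀ (k' : ℝ) (v : E), fderiv ℝ f ((k, (β, 0), 0, y) : St D) (k', 0, 0, v) = k' * f1 := by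
    intro k' v
    refine rm_line hf ?_
    simp only [Prod.smul_mk, Prod.mk_add_mk, smul_zero, add_zero, h, smul_eq_mul]
    simpa using ((((hasDerivAt_id (0 : ℝ)).mul_const k').const_add k).mul_const f1).const_add f0
  unfold Dz
  rw [Finset.sum_eq_single 0]
  · simp only [if_true, Sm_col, h1]
    split_ifs <;> simp
  · intro μ _ hμ
    simp only [hμ, if_false, h1]
    simp
  · simp

theorem phi_model (k k' : ℝ) {b : ℝ} (hb : b ≠ 0) (y : E) (i j : Fin 4) :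
    Phi q ((k, (b, 0), 0, y) : St D) k' 0 i j = Matrix.diagonal
      ![-3 * k', 4 * (b ^ 2)⁻¹ - 2 * (b ^ 8)⁻¹ - 2 * k ^ 2 - k',
        4 * (b ^ 2)⁻¹ - 2 * (b ^ 8)⁻¹ - 2 * k ^ 2 - k', 2 * (b ^ 8)⁻¹ - 2 * k ^ 2 - k'] i j := by
  have h1 : ∀ a c e d : Fin 4, Dz q (om q a c e) ((k, (b, 0), 0, y) : St D) k' 0 d =
      if d = 0 then k' * rmP a c e else 0 := fun a c e d =>
    rm_Dz_static ((rm_contDiffAt_om a c e (ζ := ((k, (b, 0), 0, y) : St D)) hb).differentiableAt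
      (by simp)) (fun k y => rm_om_static k hb y a c e) k' d
  have h2 : ∀ e d : Fin 4, Dz q (dv q e) ((k, (b, 0), 0, y) : St D) k' 0 d =
      if d = 0 then k' * (if e = 0 then 3 else 0) else 0 := fun e d =>
    rm_Dz_static ((rm_contDiffAt_dv e (ζ := ((k, (b, 0), 0, y) : St D)) hb).differentiableAt
      (by simp)) (fun k y => rm_dv_static k hb y e) k' d
  unfold Phi
  simp only [h1, h2, rm_om_static k hb, rm_dv_static k hb]
  fin_cases i <;> fin_cases j <;> simp [rmO, rmP, Fin.sum_univ_four] <;> field_simp <;> ring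

/-- The logarithmic radial derivative of the frame matrix. -/
def bet (q : ℕ) {D : ℕ} (a c : Fin 4) (ζ : St D) : ℝ :=
  ∑ ν, ZS q ζ 0 a ν * Si q ζ.2.1 ζ.2.2.2 ν c

theorem bet_static (k b : ℝ) (y : E) (a c : Fin 4) :
    bet q a c ((k, (b, 0), 0, y) : St D) = 0 := by
  have h : ∀ ν, ZS q ((k, (b, 0), 0, y) : St D) 0 a ν = 0 := fun ν => by
    unfold ZS
    simp only [if_true]
    exact map_zero _
  simp [bet, h]

theorem rm_ZS_row (ζ : St D) (μ ν : Fin 4) : ZS q ζ μ 0 ν = 0 := by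
  simp [ZS, Sm_row]

theorem rm_ZS_col (ζ : St D) (μ a : Fin 4) : ZS q ζ μ a 0 = 0 := by
  simp [ZS, Sm_col]

theorem rm_bet_row (ζ : St D) (c : Fin 4) : bet q 0 c ζ = 0 := by
  simp [bet, rm_ZS_row]

theorem rm_bet_col (ζ : St D) (a : Fin 4) : bet q a 0 ζ = 0 := by
  simp [bet, Si_col, rm_ZS_col]

theorem rm_Cst0 (l ν : Fin 4) : Cst 0 l ν = 0 := rfl

theorem rm_Cst1 (μ ν : Fin 4) : Cst μ 0 ν = 0 := by
  fin_cases μ <;> fin_cases ν <;> simp [Cst]

theorem rm_Cst2 (μ l : Fin 4) : Cst μ l 0 = 0 := by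
  fin_cases μ <;> fin_cases l <;> simp [Cst]

theorem rm_ct0 (ζ : St D) (a c : Fin 4) : ct q 0 a c ζ =
    bet q a c ζ - ζ.1 * ((if a = c then 1 else 0) - (if a = 0 ∧ 0 = c then 1 else 0)) := by
  simp [ct, bet, Sm_row, rm_ZS_row, rm_Cst0]

theorem rm_ct1 (ζ : St D) (a c : Fin 4) : ct q a 0 c ζ =
    -bet q a c ζ + ζ.1 * ((if a = c then 1 else 0) - (if a = 0 ∧ 0 = c then 1 else 0)) := by
  simp [ct, bet, Sm_row, rm_ZS_row, rm_Cst1]
  ring

theorem rm_ct2 (ζ : St D) (a b : Fin 4) : ct q a b 0 ζ = 0 := by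
  simp [ct, Si_col, rm_ZS_col, rm_Cst2, and_comm]

theorem rm_om00 (d : Fin 4) : om q 0 0 d = fun _ : St D => 0 := by
  funext ζ
  unfold om
  rw [rm_ct0 ζ 0 d, rm_ct2, rm_ct2, rm_bet_row]
  simp

theorem rm_om0 (ζ : St D) (a d : Fin 4) : om q a 0 d ζ =
    ζ.1 * ((if a = d then 1 else 0) - (if a = 0 ∧ 0 = d then 1 else 0)) -
      (bet q a d ζ + bet q d a ζ) / 2 := by
  unfold om
  rw [rm_ct1, rm_ct0, rm_ct2]
  fin_cases a <;> fin_cases d <;> simp <;> ring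

theorem rm_hasDerivAt_det {M : ℝ → Mat} {M' : Mat} {t : ℝ}
    (h : ∀ i j, HasDerivAt (fun s => M s i j) (M' i j) t) :
    HasDerivAt (fun s => (M s).det) (∑ k, ((M t).updateCol k fun i => M' i k).det) t := by
  have h1 := HasDerivAt.fun_sum (u := Finset.univ) fun (σ : Equiv.Perm (Fin 4)) _ =>
    (HasDerivAt.fun_finsetProd (u := Finset.univ) fun i _ => h (σ i) i).const_mul
      (((Equiv.Perm.sign σ : ℤˣ) : ℤ) : ℝ)
  simp only [Matrix.det_apply']
  refine h1.congr_deriv ?_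
  rw [Finset.sum_comm]
  refine Finset.sum_congr rfl fun σ _ => ?_
  rw [Finset.mul_sum]
  refine Finset.sum_congr rfl fun k _ => ?_
  congr 1
  rw [← Finset.mul_prod_erase _ _ (Finset.mem_univ k), Matrix.updateCol_self, smul_eq_mul,
    mul_comm]
  congr 1
  refine Finset.prod_congr rfl fun i hi => ?_
  rw [Matrix.updateCol_ne (Finset.ne_of_mem_erase hi)]

theorem rm_tr_bet {ζ : St D} (h : ζ.2.1.1 ≠ 0) : ∑ a, bet q a a ζ = 0 := by
  obtain ⟨k, π, π', y⟩ := ζ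
  have hl : HasDerivAt (fun t : ℝ => ((π + t • π', y) : (ℝ × V D) × E)) (π', 0) 0 := by
    refine HasDerivAt.prodMk ?_ (hasDerivAt_const _ _)
    simpa using ((hasDerivAt_id (0 : ℝ)).smul_const π').const_add π
  have h1 : ∀ a ν, HasDerivAt (fun t : ℝ => Sm q (π + t • π') y a ν)
      (ZS q ((k, π, π', y) : St D) 0 a ν) 0 := by
    intro a ν
    have h2 := ((contDiffAt_Sm (q := q) a ν (z := (π, y)) h).differentiableAt
      (by simp)).hasFDerivAt
    have h3 := h2.comp_hasDerivAt_of_eq (0 : ℝ) hl (by simp)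
    simp only [Function.comp_def] at h3
    unfold ZS
    simp only [if_true]
    exact h3
  have h2 : ∀ a c, HasDerivAt (fun t : ℝ => (Sm q (π + t • π') y * Si q π y) a c)
      (Matrix.of (fun a c => bet q a c ((k, π, π', y) : St D)) a c) 0 := by
    intro a c
    simp only [Matrix.mul_apply, Matrix.of_apply, bet]
    exact HasDerivAt.fun_sum fun ν _ => (h1 a ν).mul_const _
  have h3 := rm_hasDerivAt_det h2
  have h4 : ∀ᶠ t : ℝ in 𝓝 0, (π + t • π').1 ≠ 0 :=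
    ContinuousAt.eventually_ne (g := fun t : ℝ => (π + t • π').1) (by fun_prop) (by simpa using h)
  have h5 : (fun t : ℝ => (Sm q (π + t • π') y * Si q π y).det) =ᶠ[𝓝 0]
      fun _ => (Si q π y).det := by
    filter_upwards [h4] with t ht
    rw [Matrix.det_mul, det_Sm ht, one_mul]
  have h6 := h3.unique ((hasDerivAt_const (0 : ℝ) _).congr_of_eventuallyEq h5)
  rw [← h6]
  refine Finset.sum_congr rfl fun a _ => ?_
  simp only [zero_smul, add_zero]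
  rw [Sm_mul_Si (π := π) h, ← Matrix.cramer_apply, Matrix.cramer_one]
  rfl

theorem rm_dv0 {ζ : St D} (h : ζ.2.1.1 ≠ 0) : dv q 0 ζ = 3 * ζ.1 := by
  have h1 := rm_tr_bet (q := q) h
  unfold dv
  simp only [rm_om0]
  rw [Fin.sum_univ_four] at h1 ⊢
  simp
  linarith

theorem phi_radial {ζ : St D} (h : ζ.2.1.1 ≠ 0) (k' : ℝ) (π'' : ℝ × V D) :
    Phi q ζ k' π'' 0 0 = -3 * k' - ∑ a, ∑ c, ((bet q a c ζ + bet q c a ζ) / 2) ^ 2 := by
  have h1 : dv q 0 =ᶠ[𝓝 ζ] fun ζ : St D => 3 * ζ.1 := by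
    have h4 : ∀ᶠ z : St D in 𝓝 ζ, z.2.1.1 ≠ 0 :=
      ContinuousAt.eventually_ne (g := fun z : St D => z.2.1.1) (by fun_prop) h
    filter_upwards [h4] with z hz using rm_dv0 hz
  have h2 : Dz q (dv q 0) ζ k' π'' 0 = 3 * k' := by
    have h3 : HasFDerivAt (fun ζ : St D => 3 * ζ.1)
        ((3 : ℝ) • ContinuousLinearMap.fst ℝ ℝ ((ℝ × V D) × (ℝ × V D) × E)) ζ :=
      hasFDerivAt_fst.const_mul 3
    unfold Dz
    rw [h1.fderiv_eq, h3.fderiv]
    simp [Sm_row]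
  have h3 : ∀ d e, Dz q (om q 0 0 d) ζ k' π'' e = 0 := fun d e => by
    simp [Dz, rm_om00]
  have h4 := rm_tr_bet (q := q) h
  have h5 := rm_bet_row (q := q) ζ 0
  unfold Phi
  simp only [h2, h3, rm_dv0 h]
  simp only [rm_om00]
  simp only [rm_om0]
  simp only [Fin.sum_univ_four] at h4 ⊢
  simp
  linear_combination (2 * ζ.1) * h4 - (2 * ζ.1) * h5

end Vale.Agent.P225
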